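import Vale.Agent.P235.K5.H669.Tree

/-!
# P235, line SX, row [S4b]: nothing is contracted inside a piece (helper76)

`ty s`: the fine node `s` lies in a coarse piece of type T; `R s`: the adhesion of this piece;
`nv s`: the new vertex of the fine node `s`, whose bag is `insert (nv s) (S s)`.
-/

namespace Vale.Agent.P235.K5.SX.H76

open Finset Vale.Agent.P235.K5.H838 Vale.Agent.P235.K5.H669

variable {T V : Type*} {d : V → V → ℝ}

/-- `m` is at most the distance, and at most the length of every way through `R`. -/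
def Low (d : V → V → ℝ) (R : Set V) (p q : V) (m : ℝ) : Prop :=
  m ≤ d p q ∧ ∀ r ∈ R, ∀ r' ∈ R, m ≤ d p r + d q r'

theorem Low.symm (hd : PM d) {R : Set V} {p q : V} {m : ℝ} (h : Low d R p q m) :
    Low d R q p m :=
  ⟨by rw [hd.symm]; exact h.1, fun r hr r' hr' => by
    have := h.2 r' hr' r hr
    linarith⟩

theorem Low.shift (hd : PM d) {R : Set V} {v q : V} {m : ℝ} (h : Low d R v q m) (a : V) :
    Low d R a q (m - d v a) := by
  refine ⟨?_, fun r hr r' hr' => ?_⟩
  · have h1 := hd.tri v a q
    linarith [h.1]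
  · have h1 := hd.tri v a r
    linarith [h.2 r hr r' hr']

/-- The fine nodes of type T: either the adhesion is contained in the adhesion of the piece, or the
parent is a fine node of the same piece. -/
structure Fine (D : Nodes T V d) (ty : T → Prop) (R : T → Set V) (nv : T → V) : Prop where
  root : ∀ s, D.root s → ty s → ↑(D.S s) ⊆ R s ∨ (D.S s).card ≤ 1
  step : ∀ s, ty s → ¬ D.root s → ↑(D.S s) ⊆ R s ∨
    (ty (D.par s) ∧ R (D.par s) = R s ∧
      ∀ a ∈ D.S s, a = nv (D.par s) ∨ a ∈ D.S (D.par s))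

variable {D : Nodes T V d} {ty : T → Prop} {R : T → Set V} {nv : T → V}

theorem X_ge (hd : PM d) {s : T} {a v : V} (ha : a ∈ D.S s) {m : ℝ}
    (h : ∀ a' ∈ D.S s, m ≤ d v a' + D.rho s a' a) : m ≤ D.X s a v := by
  obtain ⟨a', ha', e⟩ := exists_XX (d := d) (ρ := D.rho s) (⟨a, ha⟩ : (D.S s).Nonempty) a v
  have h1 := h a' ha'
  show m ≤ XX d (D.S s) (D.rho s) a v
  rw [e]
  exact h1

theorem EE_ge_X (hd : PM d) {u : T} {v q : V} (hq : q ∈ D.S u) : D.X u q v ≤ D.EE u v q := by
  have h1 := le_rT (d := d) (ρ := D.rho u) hq v q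
  have h2 : XX d (D.S u) (D.rho u) q q ≤ 0 := by
    have h3 := XX_le (d := d) (ρ := D.rho u) hq q q
    rw [hd.self, (Nodes.sub hd u).self q hq, add_zero] at h3
    exact h3
  have h4 := le_abs_self (XX d (D.S u) (D.rho u) q v - XX d (D.S u) (D.rho u) q q)
  show XX d (D.S u) (D.rho u) q v ≤ rT d (D.S u) (D.rho u) v q
  linarith

/-- **[S4b]** the region lemma -/
theorem region (hd : PM d) (hF : Fine D ty R nv) (n : ℕ) : ∀ s, D.rk s < n → ty s →
    ∀ p ∈ D.S s, ∀ q ∈ D.S s, ∀ m, Low d (R s) p q m → m ≤ D.rho s p q := by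
  induction n with
  | zero => intro s hs; exact absurd hs (Nat.not_lt_zero _)
  | succ n ih =>
    intro s hs hty p hp q hq m hm
    have hsub : ↑(D.S s) ⊆ R s → m ≤ D.rho s p q := by
      intro h
      have h1 := hm.2 p (h hp) q (h hq)
      rw [hd.self, hd.self, add_zero] at h1
      exact h1.trans ((Nodes.sub hd s).nonneg hp hq)
    by_cases hr : D.root s
    · rcases hF.root s hr hty with h | h
      · exact hsub h
      · have h1 : p = q := Finset.card_le_one.1 h p hp q hq
        have h2 := hm.1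
        rw [h1, hd.self] at h2
        exact h2.trans ((Nodes.sub hd s).nonneg hp hq)
    · rcases hF.step s hty hr with h | ⟨h1, h2, h3⟩
      · exact hsub h
      · have hrk : D.rk (D.par s) < n := by
          have := D.rk_par s hr
          omega
        have hm' : Low d (R (D.par s)) p q m := by rw [h2]; exact hm
        -- `X ≥ m` for a pair (new vertex, old vertex)
        have key : ∀ v, ∀ b ∈ D.S (D.par s), Low d (R (D.par s)) v b m →
            m ≤ D.EE (D.par s) v b := by
          intro v b hb hl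
          refine (X_ge hd hb fun a ha => ?_).trans (EE_ge_X hd hb)
          have := ih (D.par s) hrk h1 a ha b hb _ (hl.shift hd a)
          linarith
        rw [D.rho_eq hr]
        by_cases hpS : p ∈ D.S (D.par s)
        · have h4 := key q p hpS (hm'.symm hd)
          rw [(Nodes.EE_pm (D := D) (D.par s)).symm]
          exact h4
        · by_cases hqS : q ∈ D.S (D.par s)
          · exact key p q hqS hm'
          · have e1 := (h3 p hp).resolve_right hpS
            have e2 := (h3 q hq).resolve_right hqS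
            have h4 := hm.1
            rw [e1, e2, hd.self] at h4
            exact h4.trans (Nodes.EE_nonneg _ _ _)

theorem rho_ge (hd : PM d) (hF : Fine D ty R nv) {s : T} (hs : ty s) {p q : V} (hp : p ∈ D.S s)
    (hq : q ∈ D.S s) {m : ℝ} (hm : Low d (R s) p q m) : m ≤ D.rho s p q :=
  region hd hF (D.rk s + 1) s (Nat.lt_succ_self _) hs p hp q hq m hm

/-- the contracted distance of any vertex to the adhesion -/
theorem X_low (hd : PM d) (hF : Fine D ty R nv) {s : T} (hs : ty s) {a v : V} (ha : a ∈ D.S s)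
    {m : ℝ} (hm : Low d (R s) v a m) : m ≤ D.X s a v := by
  refine X_ge hd ha fun a' ha' => ?_
  have := rho_ge hd hF hs ha' ha (hm.shift hd a')
  linarith

/-- the same for the Kuratowski metric -/
theorem EE_low (hd : PM d) (hF : Fine D ty R nv) {s : T} (hs : ty s) {a v : V} (ha : a ∈ D.S s)
    {m : ℝ} (hm : Low d (R s) v a m) : m ≤ D.EE s v a :=
  (X_low hd hF hs ha hm).trans (EE_ge_X hd ha)

/-- **the lower bound of `N` in the fine bags of type T** -/
theorem bag_low (hd : PM d) (hF : Fine D ty R nv) {N : V → V → ℝ} {c : ℝ} (hc : 0 ≤ c)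
    (hN0 : ∀ p q, 0 ≤ N p q) (hNs : ∀ p q, N p q = N q p)
    (hN : ∀ s, ty s → ∀ a ∈ D.S s, c * D.X s a (nv s) ≤ N (nv s) a) (n : ℕ) :
    ∀ s, D.rk s < n → ty s → ∀ p q, (p = nv s ∨ p ∈ D.S s) → (q = nv s ∨ q ∈ D.S s) →
      ∀ m, Low d (R s) p q m → c * m ≤ N p q := by
  induction n with
  | zero => intro s hs; exact absurd hs (Nat.not_lt_zero _)
  | succ n ih =>
    intro s hs hty p q hp hq m hm
    have h0 : m ≤ 0 → c * m ≤ N p q := fun h =>
      (mul_nonpos_of_nonneg_of_nonpos hc h).trans (hN0 p q)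
    have hnew : ∀ a ∈ D.S s, Low d (R s) (nv s) a m → c * m ≤ N (nv s) a := fun a ha hl =>
      (mul_le_mul_of_nonneg_left (X_low hd hF hty ha hl) hc).trans (hN s hty a ha)
    rcases hp with rfl | hp
    · rcases hq with rfl | hq
      · refine h0 ?_
        have := hm.1
        rwa [hd.self] at this
      · exact hnew q hq hm
    · rcases hq with rfl | hq
      · rw [hNs]
        exact hnew p hp (hm.symm hd)
      · have hsub : ↑(D.S s) ⊆ R s → m ≤ 0 := by
          intro h
          have h1 := hm.2 p (h hp) q (h hq)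
          rw [hd.self, hd.self, add_zero] at h1
          exact h1
        by_cases hr : D.root s
        · rcases hF.root s hr hty with h | h
          · exact h0 (hsub h)
          · refine h0 ?_
            have h1 : p = q := Finset.card_le_one.1 h p hp q hq
            have h2 := hm.1
            rwa [h1, hd.self] at h2
        · rcases hF.step s hty hr with h | ⟨h1, h2, h3⟩
          · exact h0 (hsub h)
          · have hrk : D.rk (D.par s) < n := by
              have := D.rk_par s hr
              omega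
            exact ih (D.par s) hrk h1 p q (h3 p hp) (h3 q hq) m (by rw [h2]; exact hm)

/-- **[S4b], the consequence**: `N p q ≥ c * min (d p q) (d(p,R) + d(q,R))` in a fine bag of
type T. -/
theorem bag_lower (hd : PM d) (hF : Fine D ty R nv) {N : V → V → ℝ} {c : ℝ} (hc : 0 ≤ c)
    (hN0 : ∀ p q, 0 ≤ N p q) (hNs : ∀ p q, N p q = N q p)
    (hN : ∀ s, ty s → ∀ a ∈ D.S s, c * D.X s a (nv s) ≤ N (nv s) a) {s : T} (hs : ty s) {p q : V}
    (hp : p = nv s ∨ p ∈ D.S s) (hq : q = nv s ∨ q ∈ D.S s) {m : ℝ} (h1 : m ≤ d p q)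
    (h2 : ∀ r ∈ R s, ∀ r' ∈ R s, m ≤ d p r + d q r') : c * m ≤ N p q :=
  bag_low hd hF hc hN0 hNs hN (D.rk s + 1) s (Nat.lt_succ_self _) hs p q hp hq m ⟨h1, h2⟩

end Vale.Agent.P235.K5.SX.H76
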